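import Vale.Agent.P261Z.L3.Main
import Vale.Agent.P261Z.Loc.Blw
import Vale.Agent.P261Z.Loc.Iso
import Vale.Agent.P261Z.Loc.Php
import Vale.Agent.P261Z.Loc.Idm
import Vale.Agent.P261Z.S.StL

/-!
# P261Z, blocks H, B, S, C1 without hypotheses
-/

noncomputable section

namespace P261.L3

variable {p : ℕ} [hp : Fact p.Prime] {k : Type} [Field k]

theorem local' : SS.LOCAL p k := local_of Loc.blw (Loc.iso_of Loc.blw) Loc.php Loc.alm Loc.idm

theorem stL (hk : Pf p k) : StL p k := SS.All.stL_of hk local'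

theorem sh (hk : Pf p k) : C2.SH p k := SS.All.sh hk local'

end P261.L3
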