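import Vale.Agent.P261Z.S.CF
import Vale.Agent.P261Z.W.Pole

/-!
# P261Z, block L3: the test object of a perfect algebra over the step zero
-/

noncomputable section

namespace P261.L3

variable {p : ℕ} [hp : Fact p.Prime] {k : Type} [Field k]

instance pf0 (T : FP p k) : Pf p T.F.zero :=
  Pf.subring _ fun x hx => T.F.root (by rwa [rt_pow, mul_zero])

/-- the map of the steps zero -/
def z0 {T T' : FP p k} (f : T.Hom T') : T.F.zero →+* T'.F.zero :=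
  f.r.restrict _ _ fun x hx => f.mem 0 x hx

variable {T : FP p k} (w : (Gm p k).obj T)

/-- the marked unit in the step zero -/
def w0 : T.F.zero := ⟨w.1, T.F.le w.2.1 (by norm_num)⟩

theorem away (hE : T.F.Exh) : IsLocalization.Away (w0 w) T.K := by
  refine IsLocalization.Away.mk _ w.1.isUnit (fun y => ?_) fun a b h => ⟨0, by
    rw [Subtype.ext h]⟩
  obtain ⟨t, ht⟩ := hE y
  obtain ⟨N, hN⟩ := exists_nat_ge t
  exact ⟨N, ⟨y * (w.1 : T.K) ^ N, T.F.mul_le ht (T.F.pow_mem w.2.1 N) (by linarith)⟩, rfl⟩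

include w in
theorem hom_ext (hE : T.F.Exh) {V : FP p k} {φ φ' : T.Hom V}
    (h : ∀ c : T.F.zero, φ.f c = φ'.f c) : φ = φ' := by
  have := away w hE
  exact FP.Hom.ext (AlgHom.coe_ringHom_injective
    (IsLocalization.ringHom_ext (Submonoid.powers (w0 w)) (RingHom.ext h)))

theorem maps_of {L : Type} [CommRing L] [Ch p L] {G : Fil p L} (hG : G.Closed) {f : T.K →+* L}
    (h0 : ∀ x ∈ T.F.F 0, f x ∈ G.F 0) (h1 : f w.1 ∈ G.F (-1)) (h2 : f (w.1⁻¹ : T.Kˣ) ∈ G.F 1) :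
    Fil.Maps f T.F G := by
  rw [T.cl.eq_pole w.2.1 w.2.2]
  exact (Fil.pole_maps hG).2 ⟨h0, h1, h2⟩

variable {T' : FP p k} (f : T.Hom T') (B : Type) [CommRing B] [Algebra T.F.zero B]

theorem ex_of (hE : T.F.Exh) [Algebra B T'.K] [IsLocalization.Away (algebraMap _ B (w0 w)) T'.K]
    (ha : ∀ c : T.F.zero, algebraMap B T'.K (algebraMap _ B c) = f.f c)
    (hm : ∀ (V : FP p k) (g : T'.K →+* V.K), (∀ b, g (algebraMap B _ b) ∈ V.F.F 0) →
      g (f.f w.1) ∈ V.F.F (-1) → g (f.f (w.1⁻¹ : T.Kˣ)) ∈ V.F.F 1 → Fil.Maps g T'.F V.F)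
    (V : FP p k) (φ : T.Hom V) (o : FP.Over φ B) :
    ∃ ψ : T'.Hom V, ψ.comp f = φ ∧ ∀ b, ψ.f (algebraMap B _ b) = o.ψ b := by
  have := away w hE
  obtain ⟨g, hg⟩ : ∃ g : T'.K →+* V.K, ∀ b, g (algebraMap B _ b) = o.ψ b :=
    ⟨IsLocalization.Away.lift (algebraMap _ B (w0 w)) (g := o.ψ)
      (by rw [o.alg]; exact w.1.isUnit.map φ.f), IsLocalization.Away.lift_eq _ _⟩
  have e : g.comp f.r = φ.r := IsLocalization.ringHom_ext (Submonoid.powers (w0 w))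
    (RingHom.ext fun c => (congrArg g (ha c).symm).trans ((hg _).trans (o.alg c)))
  have e' : ∀ y, g (f.f y) = φ.f y := RingHom.congr_fun e
  have e'' : ∀ c, g (algebraMap k _ c) = algebraMap k _ c := fun c => by
    rw [← f.f.commutes, ← φ.f.commutes]
    exact e' _
  exact ⟨⟨{ g with commutes' := e'' },
    hm V g (fun b => hg b ▸ o.mem b) (e' _ ▸ φ.mem _ _ w.2.1) (e' _ ▸ φ.mem _ _ w.2.2)⟩,
    FP.Hom.ext (AlgHom.ext e'), hg⟩

include w in
/-- maps out of an exhaustive test object -/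
theorem hom_of (hE : T.F.Exh) (hE' : T'.F.Exh) (V : FP p k) (φ : T.Hom V)
    (ψ : T'.F.zero →+* V.K) (h0 : ∀ c, ψ c ∈ V.F.F 0) (h1 : ∀ c, ψ (z0 f c) = φ.f c) :
    ∃ χ : T'.Hom V, χ.comp f = φ ∧ ∀ c : T'.F.zero, χ.f c = ψ c := by
  let : Algebra T.F.zero T'.F.zero := (z0 f).toAlgebra
  have : IsLocalization.Away (algebraMap T.F.zero T'.F.zero (w0 w)) T'.K :=
    away ((Gm p k).map f w) hE'
  exact ex_of w f T'.F.zero hE (fun _ => rfl) (fun V g a b c =>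
    maps_of ((Gm p k).map f w) V.cl (fun x hx => a ⟨x, hx⟩) b c) V φ ⟨ψ, h0, h1⟩

variable [Pf p B] {f B}

/-- `T'` is the test object of `B` -/
structure IsExt (o : FP.Over f B) : Prop where
  exh : T'.F.Exh
  ex : ∀ (V : FP p k) (φ : T.Hom V) (o' : FP.Over φ B),
    ∃ ψ : T'.Hom V, ψ.comp f = φ ∧ ∀ b, ψ.f (o.ψ b) = o'.ψ b
  un : ∀ (V : FP p k) (ψ ψ' : T'.Hom V), (∀ b, ψ.f (o.ψ b) = ψ'.f (o.ψ b)) → ψ = ψ'
  ker : ∀ (n : ℕ) (b : B), o.ψ b = 0 → (rt p B ^ n) (algebraMap _ B (w0 w)) * b = 0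
  cok : ∀ (n : ℕ), ∀ y ∈ T'.F.F 0, ∃ b, o.ψ b = o.ψ ((rt p B ^ n) (algebraMap _ B (w0 w))) * y

variable (B)

theorem exists_ext (hE : T.F.Exh) :
    ∃ (T' : FP p k) (f : T.Hom T') (o : FP.Over f B), IsExt w o := by
  have := away w hE
  obtain ⟨K, _, _, _⟩ : ∃ (K : Type) (_ : CommRing K) (_ : Algebra B K),
      IsLocalization.Away (algebraMap _ B (w0 w)) K :=
    ⟨Localization.Away (algebraMap _ B (w0 w)), _, _, inferInstance⟩
  have : Pf p K := Pf.loc (Submonoid.powers (algebraMap _ B (w0 w))) K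
  have hu := IsLocalization.Away.algebraMap_isUnit (S := K) (algebraMap _ B (w0 w))
  obtain ⟨φ, hφ⟩ : ∃ φ : T.K →+* K, ∀ c : T.F.zero, φ c = algebraMap B K (algebraMap _ B c) :=
    ⟨IsLocalization.Away.lift (w0 w) (g := (algebraMap B K).comp (algebraMap _ B)) hu,
      IsLocalization.Away.lift_eq _ _⟩
  let u : Kˣ := Units.map φ.toMonoidHom w.1
  have hu' : (u : K) = algebraMap B K (algebraMap _ B (w0 w)) := hφ (w0 w)
  have hw : (u : K) ∈ (algebraMap B K).range := ⟨_, hu'.symm⟩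
  have hC : ∀ x : K, x ^ p ∈ (algebraMap B K).range → x ∈ (algebraMap B K).range :=
    fun _ ⟨y, hy⟩ => ⟨rt p B y, by rw [map_rt, hy, rt_pow']⟩
  have h0 : ∀ b, algebraMap B K b ∈ (Fil.pole _ u hw hC).F 0 := fun b => Fil.pole_of_mem ⟨b, rfl⟩
  let : Algebra k K := (φ.comp (algebraMap k T.K)).toAlgebra
  let T' : FP p k := ⟨K, Fil.pole _ u hw hC, Fil.closed_pole, fun c =>
    (hφ ⟨_, T.k0 c⟩).symm ▸ h0 (algebraMap _ B (⟨_, T.k0 c⟩ : T.F.zero))⟩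
  let f : T.Hom T' := ⟨{ φ with commutes' := fun _ => rfl }, maps_of w Fil.closed_pole
    (fun x hx => (hφ ⟨x, hx⟩).symm ▸ h0 (algebraMap _ B (⟨x, hx⟩ : T.F.zero))) Fil.pole_w
    Fil.pole_inv⟩
  refine ⟨T', f, ⟨algebraMap B K, h0, fun c => (hφ c).symm⟩,
    Fil.exh_pole (hw := hw) (hC := hC) fun y => ?_,
    ex_of w f B hE (fun c => (hφ c).symm) fun V g a b c =>
      (Fil.pole_maps (hw := hw) (hC := hC) V.cl).2 ⟨?_, b, c⟩,
    fun V ψ ψ' h => FP.Hom.ext (AlgHom.coe_ringHom_injective (IsLocalization.ringHom_ext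
      (Submonoid.powers (algebraMap _ B (w0 w))) (RingHom.ext h))), fun n b hb => ?_,
    fun n y hy => ?_⟩
  · obtain ⟨N, a, h⟩ := IsLocalization.Away.surj (algebraMap _ B (w0 w)) y
    exact ⟨N, a, by rw [hu', mul_comm, h]⟩
  · rintro _ ⟨b, rfl⟩
    exact a b
  · obtain ⟨⟨_, N, rfl⟩, h⟩ :=
      (IsLocalization.map_eq_zero_iff (Submonoid.powers (algebraMap _ B (w0 w))) K b).1 hb
    exact rt_mul_eq_zero h n
  · obtain ⟨b, hb⟩ := (Fil.pole_zero_iff_rt (hw := hw) (hC := hC)).1 hy n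
    exact ⟨b, hb.trans (by rw [hu', ← map_rt_pow])⟩

end P261.L3
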