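import Vale.Agent.P261Z.L3.Tr2
import Vale.Agent.P261Z.Loc.Sk
import Vale.Agent.P261Z.S.Sk

/-!
# P261Z, block L3: almost acyclicity is local
-/

noncomputable section

namespace P261.L3

open Loc

variable {p : ℕ} [hp : Fact p.Prime] {k : Type} [Field k] {T : FP p k} (w : (Gm p k).obj T)

theorem down (h4 : ALM p) (K : Cx p T.F.zero) {T' : FP p k} (f : T.Hom T') (hE' : T'.F.Exh)
    (E : Type) [CommRing E] [Pf p E] [Algebra T'.F.zero E]
    (h : ∀ (V : FP p k) (g : T'.Hom V), V.F.Exh → FP.Over g E →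
      K.St (z0 (g.comp f)) (w0 ((Gm p k).map (g.comp f) w))) :
    K.St ((algebraMap T'.F.zero E).comp (z0 f)) (algebraMap _ E (w0 ((Gm p k).map f w))) := by
  obtain ⟨V, g, o, hx⟩ := exists_ext ((Gm p k).map f w) E hE'
  let : Algebra E V.F.zero := (o.ψ.codRestrict V.F.zero o.mem).toAlgebra
  refine Cx.St.pure (A := V.F.zero) (h4 E _ _ (fun n c hc => hx.ker n c (congrArg Subtype.val hc))
    fun n a => (hx.cok n a.1 a.2).imp fun c hc => Subtype.ext hc.symm) ?_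
  have e1 : (algebraMap E V.F.zero).comp ((algebraMap T'.F.zero E).comp (z0 f)) = z0 (g.comp f) :=
    RingHom.ext fun c => Subtype.ext (o.alg _)
  have e2 : algebraMap E V.F.zero (algebraMap _ E (w0 ((Gm p k).map f w))) =
      w0 ((Gm p k).map (g.comp f) w) := Subtype.ext (o.alg _)
  rw [e1, e2]
  exact h V g hx.exh o

theorem st_of (h1 : BLW p) (h2 : ISO p) (h3 : PHP p) (h4 : ALM p) (h5 : IDM p) (hE : T.F.Exh)
    {X : PF p k} {C : CFO X} {x : X.obj T} {ι : ℕ → Type} [∀ n, Finite (ι n)]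
    (r : ∀ n, ((C.loc T x).nf n).MRep (ι n)) {T' : FP p k} {P : (V : FP p k) → T'.Hom V → Prop}
    (h : FLoc T' P) : ∀ f : T.Hom T', T'.F.Exh →
      (∀ V g, P V g → C.LAc V (X.map (g.comp f) x)) →
      (cx r).St (z0 f) (w0 ((Gm p k).map f w)) := by
  induction h with
  | @here T' P h =>
    intro f hE' hL B _ _ _ φ hφ
    obtain ⟨V, g, o, hx⟩ := exists_ext w B hE
    have e : ∀ c, φ (z0 f c) = algebraMap _ B c := RingHom.congr_fun hφ
    obtain ⟨χ, rfl, -⟩ := hom_of w f hE hE' V g (o.ψ.comp φ) (fun _ => o.mem _) fun c =>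
      (congrArg o.ψ (e c)).trans (o.alg c)
    have := hL _ _ h V χ
    rw [← X.map_comp] at this
    exact (e (w0 w)).symm ▸ aex_of_aac r hx this
  | triv h =>
    intro f _ _ B _ _ _ φ _ n y _ m
    have := φ.codomain_trivial
    rw [Subsingleton.elim ((rt p B ^ m) _) 0, zero_smul]
    exact zero_mem _
  | @pure T' P D _ _ hD _ ih =>
    intro f hE' hL
    have : Ch p D := Ch.of_hom (algebraMap T'.F.zero D)
    refine Cx.St.pure (A := PH p D) (fun M _ _ y hy n => by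
      rw [h3 _ D hD M y hy, smul_zero]) (down w h4 _ f hE' _ fun V g e o => ?_)
    exact ih V g e ⟨o.ψ.comp (algebraMap D _), fun _ => o.mem _, o.alg⟩ _ e fun _ _ => hL _ _
  | @bl T' P a b ha hb _ ih =>
    intro f hE' hL
    obtain ⟨C₁, C₂, C₃, _, _, _, _, _, _, _, _, _, j₁, j₂, hr, hl, ⟨t, ht⟩, s, hs⟩ :=
      h1 T'.F.zero ⟨a, ha⟩ ⟨b, hb⟩
    refine Cx.St.mv hr hl (down w h4 _ f hE' _ fun V g e o => ?_)
      (down w h4 _ f hE' _ fun V g e o => ?_)
    · refine ih V g e ⟨o.ψ t, o.mem t, .inl ?_⟩ _ e fun _ _ => hL _ _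
      rw [← o.alg ⟨a, ha⟩, ← o.alg ⟨b, hb⟩, ht, map_mul]
    · refine ih V g e ⟨o.ψ s, o.mem s, .inr ?_⟩ _ e fun _ _ => hL _ _
      rw [← o.alg ⟨a, ha⟩, ← o.alg ⟨b, hb⟩, hs, map_mul]
  | @iso T' P J _ g D _ _ _ hs hi _ _ ih ih' =>
    intro f hE' hL
    refine h2 _ _ _ D _ _ J g hs hi (down w h4 _ f hE' _ fun V g e o =>
      ih V g e o _ e fun _ _ => hL _ _) fun A _ _ φ i hu => ?_
    let := φ.toAlgebra
    obtain ⟨t, ht⟩ := hu.exists_right_inv
    refine down w h4 _ f hE' A fun V g' e o =>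
      ih' V g' e ⟨i, o.ψ t, o.mem t, ?_⟩ _ e fun _ _ => hL _ _
    rw [← o.alg, ← map_mul]
    exact (congrArg o.ψ ht).trans (map_one _)
  | @idem T' P J t h0 ht _ _ ih ih' =>
    intro f hE' hL
    refine h5 _ _ _ _ _ J (fun i => ⟨t i, h0 i⟩) (fun i => Subtype.ext (ht i))
      (fun A _ _ φ hφ => ?_) fun A _ _ φ i hu => ?_
    · let := φ.toAlgebra
      exact down w h4 _ f hE' A fun V g e o => ih V g e (fun i => (o.alg ⟨t i, h0 i⟩).symm.trans
        ((congrArg o.ψ (hφ i)).trans (map_zero _))) _ e fun _ _ => hL _ _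
    · let := φ.toAlgebra
      exact down w h4 _ f hE' A fun V g e o =>
        ih' V g e ⟨i, o.alg ⟨t i, h0 i⟩ ▸ hu.map o.ψ⟩ _ e fun _ _ => hL _ _

theorem local_of (h1 : BLW p) (h2 : ISO p) (h3 : PHP p) (h4 : ALM p) (h5 : IDM p) :
    SS.LOCAL p k := by
  intro _ X C T w x hE hR h
  choose ι hι r using hR
  exact aac_of_aex (fun n => (r n).some) w (st_of w h1 h2 h3 h4 h5 hE (fun n => (r n).some) h
    (FP.Hom.id T) hE (fun _ _ => id) T.F.zero (RingHom.id _) rfl)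

end P261.L3
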