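import Vale.Agent.P261Z.L3.Ext
import Vale.Agent.P261Z.Loc.Core
import Vale.Agent.P261Z.Cs.Htpy

/-!
# P261Z, block L3: the complex of perfect algebras of a representable configuration functor
-/

noncomputable section

open TensorProduct

namespace P261.L3

variable {p : ℕ} [hp : Fact p.Prime] {k : Type} [Field k]

section mul

variable {T : FP p k} (A : CFO (PF.yo T))

/-- multiplication by a function on the base -/
def mul (c : T.K) : Cs.Hom A.cos A.cos where
  app n :=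
    { toFun := fun g => ⟨fun V z => (A.π z).f c * g.1 V z, fun V V' φ z => by
        show (A.π _).f c * g.1 V' _ = φ.f (_ * _)
        rw [A.π_map, g.2.1, map_mul]
        rfl, fun V z hz => by
        show _ * g.1 V z = 0
        rw [g.2.2 V z hz, mul_zero]⟩
      map_add' := fun _ _ => Subtype.ext (funext fun _ => funext fun _ => mul_add _ _ _)
      map_smul' := fun _ _ => Subtype.ext (funext fun _ => funext fun _ => mul_smul_comm _ _ _) }
  nat f g := Subtype.ext (funext fun V => funext fun z => by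
    show (A.π z).f c * g.1 V _ = (A.π (A.res f z)).f c * g.1 V _
    rw [A.π_res])

variable {A}

theorem mul_apply (c : T.K) (n : ℕ) (g : A.Fn n) (V : FP p k) (z : (A.Z n).obj V) :
    ((mul A c).app n g).1 V z = (A.π z).f c * g.1 V z := rfl

theorem mul_mul (c c' : T.K) (n : ℕ) (g : A.Fn n) :
    (mul A c).app n ((mul A c').app n g) = (mul A (c * c')).app n g :=
  Subtype.ext (funext fun V => funext fun z => by
    rw [mul_apply, mul_apply, mul_apply, map_mul, mul_assoc])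

theorem mul_one' (n : ℕ) (g : A.Fn n) : (mul A 1).app n g = g :=
  Subtype.ext (funext fun V => funext fun z => by rw [mul_apply, map_one, one_mul])

theorem mul_add' (c c' : T.K) (n : ℕ) (g : A.Fn n) :
    (mul A (c + c')).app n g = (mul A c).app n g + (mul A c').app n g :=
  Subtype.ext (funext fun V => funext fun z => by
    show _ = (A.π z).f c * g.1 V z + (A.π z).f c' * g.1 V z
    rw [mul_apply, map_add, add_mul])

theorem mul_mem {c : T.K} {t β γ : ℝ} (hc : c ∈ T.F.F t) {n : ℕ} {g : A.Fn n}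
    (hg : g ∈ (A.step β).S n) (h : t + β ≤ γ) : (mul A c).app n g ∈ (A.step γ).S n :=
  fun V z => V.F.mul_le ((A.π z).mem _ _ hc) (hg V z) h

end mul

theorem d_mem {A : CF p k} {β : ℝ} {n : ℕ} {g : A.Fn n} (hg : g ∈ (A.step β).S n) :
    A.cos.d n g ∈ (A.step β).S (n + 1) :=
  (A.step β).coe_d n ⟨g, hg⟩ ▸ ((A.step β).cos.d n ⟨g, hg⟩).2

theorem rt_w {T : FP p k} (w : (Gm p k).obj T) (n : ℕ) :
    (rt p T.K ^ n) w.1 ∈ T.F.F (-(1 / p ^ n)) ∧ (rt p T.K ^ n) (w.1⁻¹ : T.Kˣ) ∈ T.F.F (1 / p ^ n) ∧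
      (rt p T.K ^ n) (w.1⁻¹ : T.Kˣ) * (rt p T.K ^ n) w.1 = 1 := by
  refine ⟨T.F.root_pow n ?_, T.F.root_pow n ?_, by rw [← map_mul, w.1.inv_mul, map_one]⟩
  · rw [rt_pow_pp, mul_neg, mul_one_div_cancel (pow_pos p_pos' n).ne']
    exact w.2.1
  · rw [rt_pow_pp, mul_one_div_cancel (pow_pos p_pos' n).ne']
    exact w.2.2

section rep

variable {A : CF p k} {n : ℕ} {ι : Type} (r : (A.nf n).MRep ι)

theorem fn_ext {g g' : A.Fn n} (h : ∀ i, g.1 _ (r.u i).1 = g'.1 _ (r.u i).1) : g = g' :=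
  Subtype.ext (funext fun V => funext fun z => by
    by_cases hz : A.Full z
    · rw [g.2.2 V z hz, g'.2.2 V z hz]
    · obtain ⟨⟨i, φ⟩, e, -⟩ := r.lift V ⟨z, hz⟩
      rw [← show (A.Z n).map φ (r.u i).1 = z from congrArg Subtype.val e, g.2.1, g'.2.1, h])

theorem mem_of {g : A.Fn n} {β : ℝ} (h : ∀ i, g.1 _ (r.u i).1 ∈ (r.U i).F.F β) :
    g ∈ (A.step β).S n := fun V z => by
  by_cases hz : A.Full z
  · rw [g.2.2 V z hz]
    exact zero_mem _
  · obtain ⟨⟨i, φ⟩, e, -⟩ := r.lift V ⟨z, hz⟩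
    rw [← show (A.Z n).map φ (r.u i).1 = z from congrArg Subtype.val e, g.2.1]
    exact φ.mem _ _ (h i)

open Classical in
theorem exists_fn (q : ∀ i, (r.U i).K) : ∃ g : A.Fn n, ∀ i, g.1 _ (r.u i).1 = q i := by
  choose c hc hu using r.lift
  refine ⟨⟨fun V z => if h : A.Full z then 0 else (c V ⟨z, h⟩).2.f (q _), fun V V' φ z => ?_,
    fun V z hz => dif_pos hz⟩, fun i => ?_⟩
  · by_cases hz : A.Full z
    · simp only [dif_pos hz, dif_pos ((A.full_map φ z).2 hz), map_zero]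
    · have hz' := mt (A.full_map φ z).1 hz
      simp only [dif_neg hz, dif_neg hz']
      rw [← hu V' ⟨_, hz'⟩ ⟨(c V ⟨z, hz⟩).1, φ.comp (c V ⟨z, hz⟩).2⟩
        (((A.nf n).map_comp _ _ _).trans (congrArg ((A.nf n).map φ) (hc V ⟨z, hz⟩)))]
      rfl
  · show dite _ _ _ = _
    rw [dif_neg (r.u i).2, ← hu _ ⟨(r.u i).1, (r.u i).2⟩ ⟨i, FP.Hom.id _⟩ ((A.nf n).map_id _ _)]
    rfl

end rep

variable {T : FP p k} {A : CFO (PF.yo T)} {ι : ℕ → Type} (r : ∀ n, (A.nf n).MRep (ι n))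

/-- the step zero of a universal test object -/
def Qi (n : ℕ) (i : ι n) : Type := ((r n).U i).F.zero

instance (n : ℕ) (i : ι n) : CommRing (Qi r n i) := inferInstanceAs (CommRing ((r n).U i).F.zero)

instance (n : ℕ) (i : ι n) : Pf p (Qi r n i) := pf0 _

instance (n : ℕ) (i : ι n) : Algebra T.F.zero (Qi r n i) := (z0 (A.π ((r n).u i).1)).toAlgebra

theorem exists_fnH (n : ℕ) : ∃ fn : (∀ i, Qi r n i) →+ A.Fn n,
    ∀ q i, (fn q).1 _ ((r n).u i).1 = (q i).1 := by
  choose F hF using exists_fn (r n)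
  exact ⟨AddMonoidHom.mk' (fun q => F fun i => (q i).1) fun a b => fn_ext (r n) fun i => by
    show _ = (F _).1 _ ((r n).u i).1 + (F _).1 _ ((r n).u i).1
    rw [hF, hF, hF]
    rfl, fun q => hF _⟩

/-- the function with given universal values -/
def fn (n : ℕ) : (∀ i, Qi r n i) →+ A.Fn n := (exists_fnH r n).choose

theorem fn_u (n : ℕ) (q : ∀ i, Qi r n i) (i : ι n) : (fn r n q).1 _ ((r n).u i).1 = (q i).1 :=
  (exists_fnH r n).choose_spec q i

theorem fn_mem (n : ℕ) (q : ∀ i, Qi r n i) : fn r n q ∈ (A.step 0).S n :=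
  mem_of (r n) fun i => fn_u r n q i ▸ (q i).2

theorem fn_inj (n : ℕ) : Function.Injective (fn r n) := fun a b h =>
  funext fun i => Subtype.ext (by rw [← fn_u, h, fn_u])

theorem fn_smul (n : ℕ) (c : T.F.zero) (q : ∀ i, Qi r n i) :
    fn r n (c • q) = (mul A c).app n (fn r n q) := fn_ext (r n) fun i => by
  rw [mul_apply, fn_u, fn_u]
  rfl

/-- the universal values -/
def back (n : ℕ) (g : A.Fn n) (h : g ∈ (A.step 0).S n) : ∀ i, Qi r n i :=
  fun _ => ⟨_, h _ ((r n).u _).1⟩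

theorem fn_back (n : ℕ) (g : A.Fn n) (h : g ∈ (A.step 0).S n) : fn r n (back r n g h) = g :=
  fn_ext (r n) fun i => fn_u r n _ i

/-- the differential -/
def dQ (n : ℕ) : (∀ i, Qi r n i) →ₗ[T.F.zero] ∀ i, Qi r (n + 1) i where
  toFun q := back r (n + 1) (A.cos.d n (fn r n q)) (d_mem (fn_mem r n q))
  map_add' a b := fn_inj r _ (by
    rw [map_add (fn r (n + 1)), fn_back, fn_back, fn_back, map_add, map_add])
  map_smul' c a := fn_inj r _ (by
    rw [RingHom.id_apply, fn_smul r (n + 1), fn_back, fn_back, fn_smul, Cs.Hom.map_d])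

theorem fn_dQ (n : ℕ) (q : ∀ i, Qi r n i) : fn r (n + 1) (dQ r n q) = A.cos.d n (fn r n q) :=
  fn_back r _ _ (d_mem (fn_mem r n q))

/-- the complex -/
@[reducible] def cx : Loc.Cx p T.F.zero where
  Q n := ∀ i, Qi r n i
  d := dQ r
  dd n q := fn_inj r _ (by rw [fn_dQ, fn_dQ, Cs.dd, map_zero])

theorem aac_of_aex (w : (Gm p k).obj T) (h : (cx r).AEx T.F.zero (w0 w)) : A.AAc := by
  intro n β ε hβ hε x hx hd
  obtain ⟨m, hm⟩ := pow_unbounded_of_one_lt (2 / ε) (show (1 : ℝ) < p by exact_mod_cast one_lt_p)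
  have h0 := pow_pos (p_pos' (p := p)) m
  obtain ⟨s1, s2, s3⟩ := rt_w w m
  have hj := Nat.le_ceil (β * p ^ m)
  have hj' := Nat.ceil_lt_add_one (mul_nonneg hβ h0.le)
  generalize ⌈β * p ^ m⌉₊ = j at hj hj'
  have hx' := mul_mem (γ := 0) (T.F.pow_mem s1 j) hx (by
    rw [mul_neg, mul_one_div, neg_add_nonpos_iff, le_div_iff₀ h0]; exact hj)
  have e : ∀ y, fn r n y = (mul A ((rt p T.K ^ m) w.1)).app n
      ((mul A ((rt p T.K ^ m) w.1 ^ j)).app n x) →
      x = (mul A ((rt p T.K ^ m) (w.1⁻¹ : T.Kˣ) ^ (j + 1))).app n (fn r n y) := fun y hy => by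
    rw [hy, mul_mul, mul_mul, mul_assoc, ← pow_succ', ← mul_pow, s3, one_pow, mul_one']
  have hL : ∀ n y, TensorProduct.lid _ _ ((cx r).D T.F.zero n y) =
      dQ r n (TensorProduct.lid _ _ y) := fun n y => by
    induction y with
    | zero => simp only [map_zero]
    | tmul b q => rw [Loc.Cx.D_tmul, lid_tmul, lid_tmul, map_smul]
    | add x y hx hy => simp only [map_add, hx, hy]
  have h1 := h n (1 ⊗ₜ back r n _ hx') (by
    rw [Loc.Cx.D_tmul, show dQ r n (back r n _ hx') = 0 from fn_inj r _ (by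
      rw [fn_dQ, fn_back, ← Cs.Hom.map_d, show A.cos.d n x = 0 from hd, map_zero, map_zero]),
      tmul_zero]) m
  have h2 := e (TensorProduct.lid _ _ ((rt p T.F.zero ^ m) (w0 w) • 1 ⊗ₜ[T.F.zero] back r n _ hx'))
    (by rw [map_smul, lid_tmul, one_smul, fn_smul, fn_back]
        exact congrArg (fun c => (mul A c).app n _) (map_rt_pow T.F.zero.subtype m (w0 w)))
  show x ∈ _
  rcases n with _ | n
  · rw [h2, (Submodule.mem_bot _).1 h1, map_zero, map_zero, map_zero]
    exact zero_mem _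
  · obtain ⟨y, hy⟩ := h1
    rw [← hy, hL, fn_dQ, Cs.Hom.map_d] at h2
    refine ⟨_, mul_mem (T.F.pow_mem s2 (j + 1)) (fn_mem r n _) ?_, h2.symm⟩
    rw [add_zero, mul_one_div, div_le_iff₀ h0]
    rw [div_lt_iff₀ hε] at hm
    push_cast
    nlinarith

end P261.L3
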