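import Vale.Agent.P261Z.L3.Tr

/-!
# P261Z, block L3: base change of the complex
-/

noncomputable section

open TensorProduct

namespace P261.L3

variable {p : ℕ} [hp : Fact p.Prime] {k : Type} [Field k] {X : PF p k} (C : CFO X) {T : FP p k}
  (x : X.obj T) {T' : FP p k} (f : T.Hom T')

/-- the structure map -/
def dn : (C.loc T' (X.map f x)).toCF.Map (C.loc T x).toCF where
  f z := ⟨(FP.Hom.comp z.1.1 f, z.1.2), z.2.trans (X.map_comp _ _ _).symm⟩
  map _ _ := rfl
  res _ _ := rfl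
  full _ h := h

variable {C x f} {ι : ℕ → Type} (r : ∀ n, ((C.loc T x).nf n).MRep (ι n)) {B : Type} [CommRing B]
  [Algebra T.F.zero B] (o : FP.Over f B)

/-- the comparison map -/
def be (n : ℕ) : B ⊗[T.F.zero] (∀ i, Qi r n i) →+ (C.loc T' (X.map f x)).Fn n :=
  liftAddHom (AddMonoidHom.mk' (fun b => AddMonoidHom.mk'
    (fun q => (mul _ (o.ψ b)).app n ((dn C x f).pull.app n (fn r n q)))
      fun _ _ => by rw [map_add, map_add, map_add]) fun a b => AddMonoidHom.ext fun q => by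
        show (mul _ (o.ψ (a + b))).app n _ = (mul _ (o.ψ a)).app n _ + (mul _ (o.ψ b)).app n _
        rw [map_add, mul_add'])
    fun c b q => Subtype.ext (funext fun V => funext fun z => by
      show z.1.1.f (o.ψ (c • b)) * (fn r n q).1 V ((dn C x f).f z) =
        z.1.1.f (o.ψ b) * (fn r n (c • q)).1 V ((dn C x f).f z)
      rw [fn_smul, mul_apply, Algebra.smul_def, map_mul, map_mul, o.alg,
        mul_comm _ (z.1.1.f (o.ψ b)), mul_assoc]
      rfl)

theorem be_tmul (n : ℕ) (b : B) (q : ∀ i, Qi r n i) :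
    be r o n (b ⊗ₜ q) = (mul _ (o.ψ b)).app n ((dn C x f).pull.app n (fn r n q)) := rfl

theorem be_smul (n : ℕ) (b : B) (y : B ⊗[T.F.zero] (∀ i, Qi r n i)) :
    be r o n (b • y) = (mul _ (o.ψ b)).app n (be r o n y) := by
  induction y with
  | zero => simp only [smul_zero, map_zero]
  | tmul a q => rw [smul_tmul', be_tmul, be_tmul, mul_mul, smul_eq_mul, map_mul]
  | add x y hx hy => simp only [smul_add, map_add, hx, hy]

theorem be_D (n : ℕ) (y : B ⊗[T.F.zero] (∀ i, Qi r n i)) :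
    be r o (n + 1) ((cx r).D B n y) = (C.loc T' (X.map f x)).cos.d n (be r o n y) := by
  induction y with
  | zero => simp only [map_zero]
  | tmul a q => rw [Loc.Cx.D_tmul, be_tmul, be_tmul, fn_dQ, Cs.Hom.map_d, Cs.Hom.map_d]
  | add x y hx hy => simp only [map_add, hx, hy]

theorem be_mem (n : ℕ) (y : B ⊗[T.F.zero] (∀ i, Qi r n i)) :
    be r o n y ∈ ((C.loc T' (X.map f x)).step 0).S n := by
  induction y with
  | zero => rw [map_zero]; exact zero_mem _
  | tmul a q => exact mul_mem (β := 0) (o.mem a) (fun V _ => fn_mem r n q V _) (add_zero _).le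
  | add x y hx hy => rw [map_add]; exact add_mem hx hy

variable [Pf p B] {o} {w : (Gm p k).obj T}

theorem chart (hx : IsExt w o) (n : ℕ) (i : ι n) :
    ∃ (V : FP p k) (v : ((C.loc T' (X.map f x)).Z n).obj V) (j : B ⊗[T.F.zero] Qi r n i →+* V.K),
      (∀ y, (be r o n y).1 V v = j (piRightHom _ B B _ y i)) ∧
      (∀ m y, j y = 0 → (rt p B ^ m) (algebraMap _ B (w0 w)) • y = 0) ∧
      (∀ m, ∀ y ∈ V.F.F 0, ∃ b, j b = v.1.1.f (o.ψ ((rt p B ^ m) (algebraMap _ B (w0 w)))) * y) ∧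
      ∀ (V' : FP p k) (z : ((C.loc T' (X.map f x)).Z n).obj V') (χ : ((r n).U i).Hom V'),
        ((C.loc T x).Z n).map χ ((r n).u i).1 = (dn C x f).f z →
        ∃ ψ : V.Hom V', ((C.loc T' (X.map f x)).Z n).map ψ v = z := by
  let φ : T.Hom ((r n).U i) := ((r n).u i).1.1.1
  let : Algebra ((r n).U i).F.zero (B ⊗[T.F.zero] Qi r n i) :=
    (Algebra.TensorProduct.includeRight (R := T.F.zero) (A := B) (B := Qi r n i)).toRingHom.toAlgebra
  obtain ⟨V, g, o', h'⟩ := exists_ext ((Gm p k).map φ w) (B ⊗[T.F.zero] Qi r n i) ((r n).exh i)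
  let il : B →+* B ⊗[T.F.zero] Qi r n i := Algebra.TensorProduct.includeLeftRingHom
  have e0 : ∀ c : T.F.zero, il (algebraMap _ B c) = algebraMap ((r n).U i).F.zero _ (z0 φ c) :=
    fun c => ((Algebra.TensorProduct.includeRight (R := T.F.zero) (A := B)
      (B := Qi r n i)).commutes c).symm
  obtain ⟨a, ha, ha'⟩ := hx.ex V (g.comp φ) ⟨o'.ψ.comp il, fun _ => o'.mem _, fun c =>
    (congrArg o'.ψ (e0 c)).trans (o'.alg _)⟩
  have e1 : ∀ m, (rt p _ ^ m) (algebraMap ((r n).U i).F.zero (B ⊗[T.F.zero] Qi r n i)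
      (w0 ((Gm p k).map φ w))) = il ((rt p B ^ m) (algebraMap _ B (w0 w))) := fun m => by
    rw [map_rt_pow, e0]
    rfl
  let v : ((C.loc T' (X.map f x)).Z n).obj V := ⟨(a, (C.Z n).map g ((r n).u i).1.1.2),
    (((C.loc T x).Z n).map g ((r n).u i).1).2.trans
      ((congrArg (fun t => X.map t x) ha.symm).trans (X.map_comp _ _ _))⟩
  have hv : (dn C x f).f v = ((C.loc T x).Z n).map g ((r n).u i).1 :=
    Subtype.ext (Prod.ext ha rfl)
  refine ⟨V, v, o'.ψ, fun y => ?_, fun m y hy => ?_, fun m y hy => ?_, fun V' z χ hz => ?_⟩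
  · induction y with
    | zero => simp only [map_zero, Pi.zero_apply]; rfl
    | tmul b q =>
      show a.f (o.ψ b) * (fn r n q).1 V ((dn C x f).f v) = o'.ψ (b ⊗ₜ q i)
      rw [hv, (fn r n q).2.1, fn_u, ha', ← show o'.ψ (1 ⊗ₜ q i) = g.f (q i).1 from o'.alg (q i)]
      show o'.ψ (b ⊗ₜ 1) * o'.ψ (1 ⊗ₜ q i) = _
      rw [← map_mul, Algebra.TensorProduct.tmul_mul_tmul, mul_one, one_mul]
    | add x y hx hy =>
      rw [map_add, map_add, Pi.add_apply, map_add, ← hx, ← hy]
      rfl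
  · have := h'.ker m y hy
    rw [e1] at this
    rw [Algebra.smul_def]
    exact this
  · obtain ⟨b, hb⟩ := h'.cok m y hy
    exact ⟨b, by rw [hb, e1]; exact congrArg (· * y) (ha' _).symm⟩
  · have e2 : χ.comp φ = FP.Hom.comp z.1.1 f := congrArg (fun t => t.1.1) hz
    have e3 : (C.Z n).map χ ((r n).u i).1.1.2 = z.1.2 := congrArg (fun t => t.1.2) hz
    let : Algebra T.F.zero V'.K := ((χ.comp φ).r.comp T.F.zero.subtype).toAlgebra
    let l₁ : B →ₐ[T.F.zero] V'.K :=
      { (FP.Hom.r z.1.1).comp o.ψ with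
        commutes' := fun c => (congrArg z.1.1.f (o.alg c)).trans
          (congrArg (fun t : T.Hom V' => t.f c) e2.symm) }
    let l₂ : Qi r n i →ₐ[T.F.zero] V'.K :=
      { χ.r.comp ((r n).U i).F.zero.subtype with commutes' := fun _ => rfl }
    let l := Algebra.TensorProduct.lift l₁ l₂ fun _ _ => Commute.all _ _
    obtain ⟨ψ, h1, h2⟩ := h'.ex V' χ ⟨l.toRingHom, fun y => by
      induction y with
      | zero => rw [map_zero]; exact zero_mem _
      | tmul b q => exact V'.F.zero.mul_mem (z.1.1.mem _ _ (o.mem b)) (χ.mem _ _ q.2)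
      | add x y hx hy => rw [map_add]; exact add_mem hx hy, fun c => by
        show l₁ 1 * l₂ c = _
        rw [map_one, one_mul]
        rfl⟩
    refine ⟨ψ, Subtype.ext (Prod.ext (hx.un V' (ψ.comp a) z.1.1 fun b => ?_) ?_)⟩
    · show ψ.f (a.f _) = _
      rw [ha']
      refine (h2 _).trans ?_
      show l₁ b * l₂ 1 = _
      rw [map_one, mul_one]
      rfl
    · exact ((C.Z n).map_comp ψ g _).symm.trans (h1 ▸ e3)

theorem almost [∀ n, Finite (ι n)] (hx : IsExt w o) (n m : ℕ) :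
    (∀ y, be r o n y = 0 → (rt p B ^ m) (algebraMap _ B (w0 w)) • y = 0) ∧
    ∀ g ∈ ((C.loc T' (X.map f x)).step 0).S n,
      ∃ y, be r o n y = (mul _ (o.ψ ((rt p B ^ m) (algebraMap _ B (w0 w))))).app n g := by
  classical
  have := Fintype.ofFinite (ι n)
  choose V v j h1 h2 h3 h4 using chart r hx n
  refine ⟨fun y hy => (piRight _ B B (Qi r n)).injective (funext fun i => ?_), fun g hg => ?_⟩
  · rw [map_smul, map_zero]
    exact h2 i m _ (by rw [piRight_apply, ← h1, hy]; rfl)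
  · choose b hb using fun i => h3 i m _ (hg _ (v i))
    obtain ⟨y, rfl⟩ := (piRight _ B B (Qi r n)).surjective b
    refine ⟨y, Subtype.ext (funext fun V' => funext fun z => ?_)⟩
    by_cases hz : (C.loc T' (X.map f x)).Full z
    · rw [(be r o n y).2.2 V' z hz, ((mul _ _).app n g).2.2 V' z hz]
    · obtain ⟨⟨i, χ⟩, e, -⟩ := (r n).lift V' ⟨(dn C x f).f z, hz⟩
      obtain ⟨ψ, rfl⟩ := h4 i V' z χ (congrArg Subtype.val e)
      rw [(be r o n y).2.1, ((mul _ _).app n g).2.1, h1]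
      exact congrArg ψ.f (hb i)

theorem aex_of_aac [∀ n, Finite (ι n)] (hx : IsExt w o) (h : (C.loc T' (X.map f x)).AAc) :
    (cx r).AEx B (algebraMap _ B (w0 w)) := by
  intro n y hy m
  have h0 := pow_pos (p_pos' (p := p)) (m + 1 + 1)
  have h1 := h n 0 _ le_rfl (one_div_pos.2 h0) (be r o n y) (be_mem r o n y)
    ((be_D r o n y).symm.trans (by rw [hy, map_zero]))
  obtain ⟨c, hc⟩ := Loc.rt_split (p := p) (algebraMap _ B (w0 w)) m
  obtain ⟨c', hc'⟩ := Loc.rt_split (p := p) (algebraMap _ B (w0 w)) (m + 1)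
  rcases n with _ | n
  · exact (almost r hx 0 m).1 y h1
  · obtain ⟨g, hg, e⟩ := h1
    have s1 : o.ψ ((rt p B ^ (m + 1 + 1)) (algebraMap _ B (w0 w))) ∈
        T'.F.F (-(1 / p ^ (m + 1 + 1))) := by
      rw [map_rt_pow, o.alg]
      exact (rt_w ((Gm p k).map f w) _).1
    obtain ⟨y', hy'⟩ := (almost r hx n (m + 1 + 1)).2 _ (mul_mem (γ := 0) s1 hg (by linarith))
    have e' : (C.loc T' (X.map f x)).cos.d n g = be r o (n + 1) y := e
    have h2 := (almost r hx (n + 1) (m + 1)).1 ((rt p B ^ (m + 1 + 1)) (algebraMap _ B (w0 w)) •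
      (rt p B ^ (m + 1 + 1)) (algebraMap _ B (w0 w)) • y - (cx r).D B n y') (by
        rw [map_sub, be_smul, be_smul, be_D, hy', ← Cs.Hom.map_d, ← Cs.Hom.map_d, e', sub_self])
    rw [smul_sub, sub_eq_zero, ← map_smul] at h2
    rw [hc, mul_smul, mul_smul]
    refine Submodule.smul_mem _ _ ?_
    nth_rewrite 2 [hc']
    rw [mul_smul, mul_smul, smul_comm _ c', h2]
    exact Submodule.smul_mem _ _ ⟨_, rfl⟩

end P261.L3
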